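import Mathlib

/-!
Three-machine unit-job scheduling when the deadline equals the critical path length:
core combinatorial lemmas (consistent deadlines imply a schedule).
-/

namespace Vale.Agent.Lib.P324

open Finset

variable {V : Type*} [Fintype V] [DecidableEq V]

/-- Selection of at most two elements of `M` with smallest `D`. -/
theorem exists_two_smallest (M : Finset V) (D : V → ℕ) :
    ∃ S ⊆ M, #S ≤ 2 ∧ ∀ d, #{a ∈ S | D a ≤ d} < 2 → ∀ b ∈ M, D b ≤ d → b ∈ S := by
  classical
  rcases M.eq_empty_or_nonempty with rfl | hM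
  · exact ⟨∅, by simp, by simp, by simp⟩
  obtain ⟨a1, ha1, hmin1⟩ := M.exists_min_image D hM
  rcases (M.erase a1).eq_empty_or_nonempty with hE | hE
  · refine ⟨{a1}, by simpa using ha1, by simp, ?_⟩
    intro d _ b hb _
    by_contra hne
    have : b ∈ M.erase a1 := by
      rw [Finset.mem_erase]; exact ⟨by simpa using hne, hb⟩
    rw [hE] at this; simp at this
  · obtain ⟨a2, ha2, hmin2⟩ := (M.erase a1).exists_min_image D hE
    have ha2' := Finset.mem_erase.mp ha2
    refine ⟨{a1, a2}, ?_, ?_, ?_⟩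
    · intro x hx
      simp only [mem_insert, mem_singleton] at hx
      rcases hx with rfl | rfl
      · exact ha1
      · exact ha2'.2
    · exact Finset.card_le_two
    · intro d hd b hb hbd
      by_contra hne
      simp only [mem_insert, mem_singleton, not_or] at hne
      have hb' : b ∈ M.erase a1 := Finset.mem_erase.mpr ⟨hne.1, hb⟩
      have h2 : D a2 ≤ d := le_trans (hmin2 b hb') hbd
      have h1 : D a1 ≤ d := le_trans (hmin1 b hb) hbd
      have : #{a ∈ ({a1, a2} : Finset V) | D a ≤ d} = 2 := by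
        rw [Finset.filter_true_of_mem]
        · exact Finset.card_pair (Ne.symm ha2'.1)
        · intro x hx
          simp only [mem_insert, mem_singleton] at hx
          rcases hx with rfl | rfl <;> assumption
      omega

section Core

variable (lt : V → V → Prop) [DecidableRel lt] (T : ℕ) (c : Fin T → V) (D : V → ℕ)

/-- Number of spine elements strictly below `j`. -/
abbrev rho (j : V) : ℕ := #{k : Fin T | lt (c k) j}

/-- The invariant: the jobs in `W` remain to be scheduled in slots `t0+1, ..., T`. -/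
structure Inv (t0 : ℕ) (W : Finset V) : Prop where
  lo : ∀ j ∈ W, t0 < D j
  hA : ∀ i ∈ W, ∀ s d, t0 ≤ s →
      3 * (d - s) < #{j ∈ W | j ≠ i ∧ D j ≤ d ∧ (s ≤ t0 ∨ s ≤ rho lt T c j ∨ lt i j)} → D i < s
  hH : ∀ s d, t0 ≤ s → #{j ∈ W | (s ≤ t0 ∨ s ≤ rho lt T c j) ∧ D j ≤ d} ≤ 3 * (d - s)
  spine : ∀ k : Fin T, c k ∈ W ↔ t0 ≤ k.val

variable {lt T c D}

theorem rho_ge_of_lt (htr : ∀ a b e, lt a b → lt b e → lt a e)
    (hc : ∀ a b : Fin T, a < b → lt (c a) (c b))
    (k0 : Fin T) (j : V) (h : lt (c k0) j) : k0.val + 1 ≤ rho lt T c j := by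
  have hsub : Finset.Iic k0 ⊆ ({k : Fin T | lt (c k) j} : Finset (Fin T)) := by
    intro k hk
    rw [Finset.mem_Iic] at hk
    simp only [mem_filter, mem_univ, true_and]
    rcases hk.lt_or_eq with h1 | h1
    · exact htr _ _ _ (hc _ _ h1) h
    · rw [h1]; exact h
  have := Finset.card_le_card hsub
  rwa [Fin.card_Iic] at this

theorem Inv.step (htr : ∀ a b e, lt a b → lt b e → lt a e)
    (hc : ∀ a b : Fin T, a < b → lt (c a) (c b))
    (hD : ∀ a b, lt a b → D a < D b) (hDc : ∀ k : Fin T, D (c k) = k.val + 1)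
    {t0 : ℕ} {W : Finset V} (h : Inv lt T c D t0 W) (ht : t0 < T) :
    ∃ S ⊆ W, #S ≤ 3 ∧ (∀ a ∈ S, ∀ u ∈ W, ¬ lt u a) ∧ Inv lt T c D (t0 + 1) (W \ S) := by
  classical
  obtain ⟨k0, hk0⟩ : ∃ k0 : Fin T, k0.val = t0 := ⟨⟨t0, ht⟩, rfl⟩
  obtain ⟨p, hp⟩ : ∃ p : V, p = c k0 := ⟨_, rfl⟩
  have hpW : p ∈ W := by rw [hp]; exact (h.spine k0).mpr (by omega)
  have hDp : D p = t0 + 1 := by rw [hp, hDc k0, hk0]
  obtain ⟨M, hM⟩ : ∃ M : Finset V, M = {j ∈ W | (∀ u ∈ W, ¬ lt u j) ∧ ∀ k, c k ≠ j} := ⟨_, rfl⟩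
  obtain ⟨S', hS'M, hS'card, hS'prop⟩ := exists_two_smallest M D
  have hMmem : ∀ x ∈ M, x ∈ W ∧ (∀ u ∈ W, ¬ lt u x) ∧ ∀ k, c k ≠ x := by
    intro x hx
    rw [hM] at hx
    exact mem_filter.mp hx
  have hpS' : p ∉ S' := by
    intro hp'
    exact (hMmem p (hS'M hp')).2.2 k0 hp.symm
  have hS'W : S' ⊆ W := fun x hx => (hMmem x (hS'M hx)).1
  have hcinj : ∀ k : Fin T, c k = p → k = k0 := by
    intro k hk
    have h1 := hDc k
    rw [hk, hDp] at h1
    exact Fin.ext (by omega)
  have hmin : ∀ n, ∀ j ∈ W, D j = n → ∃ m ∈ W, (∀ u ∈ W, ¬ lt u m) ∧ (m = j ∨ lt m j) := by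
    intro n
    induction n using Nat.strong_induction_on with
    | _ n ih =>
      intro j hj hn
      by_cases hjmin : ∀ u ∈ W, ¬ lt u j
      · exact ⟨j, hj, hjmin, Or.inl rfl⟩
      · push Not at hjmin
        obtain ⟨u, hu, huj⟩ := hjmin
        obtain ⟨m, hm, hm1, hm2⟩ := ih (D u) (hn ▸ hD u j huj) u hu rfl
        refine ⟨m, hm, hm1, Or.inr ?_⟩
        rcases hm2 with rfl | hm2
        · exact huj
        · exact htr _ _ _ hm2 huj
  have hall' : ∀ d, #{j ∈ W \ insert p S' | D j ≤ d} ≤ 3 * (d - (t0 + 1)) := by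
    intro d
    by_contra hcon
    push Not at hcon
    obtain ⟨B, hB⟩ : ∃ B : Finset V, B = {j ∈ W \ insert p S' | D j ≤ d} := ⟨_, rfl⟩
    rw [← hB] at hcon
    have hBmem : ∀ x ∈ B, x ∈ W ∧ x ∉ insert p S' ∧ D x ≤ d := by
      intro x hx
      rw [hB] at hx
      have hx' := mem_filter.mp hx
      exact ⟨(mem_sdiff.mp hx'.1).1, (mem_sdiff.mp hx'.1).2, hx'.2⟩
    have hBne : B.Nonempty := by
      rw [← Finset.card_pos]; omega
    obtain ⟨j0, hj0⟩ := hBne
    have hd : t0 + 1 ≤ d := by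
      have := h.lo j0 (hBmem j0 hj0).1
      have := (hBmem j0 hj0).2.2
      omega
    have hH0 := h.hH t0 d le_rfl
    have hsub : B ∪ insert p {a ∈ S' | D a ≤ d} ⊆
        {j ∈ W | (t0 ≤ t0 ∨ t0 ≤ rho lt T c j) ∧ D j ≤ d} := by
      intro x hx
      rw [mem_union] at hx
      rcases hx with hx | hx
      · exact mem_filter.mpr ⟨(hBmem x hx).1, Or.inl le_rfl, (hBmem x hx).2.2⟩
      · rw [mem_insert] at hx
        rcases hx with rfl | hx
        · exact mem_filter.mpr ⟨hpW, Or.inl le_rfl, by omega⟩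
        · have hx' := mem_filter.mp hx
          exact mem_filter.mpr ⟨hS'W hx'.1, Or.inl le_rfl, hx'.2⟩
    have hdisj : Disjoint B (insert p {a ∈ S' | D a ≤ d}) := by
      rw [Finset.disjoint_left]
      intro x hx hx2
      apply (hBmem x hx).2.1
      rw [mem_insert] at hx2 ⊢
      rcases hx2 with rfl | hx2
      · exact Or.inl rfl
      · exact Or.inr (mem_filter.mp hx2).1
    have hcard := Finset.card_le_card hsub
    rw [Finset.card_union_of_disjoint hdisj, Finset.card_insert_of_notMem (by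
      intro hp'; exact hpS' (mem_filter.mp hp').1)] at hcard
    have hlt2 : #{a ∈ S' | D a ≤ d} < 2 := by omega
    have hstar := hS'prop d hlt2
    have hclaim : ∀ j ∈ B, t0 + 1 ≤ rho lt T c j ∨ ∃ m ∈ S', D m ≤ d ∧ lt m j := by
      intro j hj
      obtain ⟨hjW, hjS, hjd⟩ := hBmem j hj
      obtain ⟨m, hmW, hmmin, hmj⟩ := hmin (D j) j hjW rfl
      by_cases hsp : ∃ k, c k = m
      · obtain ⟨k, hkm⟩ := hsp
        have hk : t0 ≤ k.val := (h.spine k).mp (hkm ▸ hmW)
        have hkk : k = k0 := by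
          by_contra hne
          have hlt : k0 < k := by
            rw [Fin.lt_def]
            have : k.val ≠ k0.val := fun e => hne (Fin.ext e)
            omega
          exact hmmin p hpW (by rw [← hkm, hp]; exact hc _ _ hlt)
        left
        have hmp : m = p := by rw [← hkm, hkk, hp]
        rcases hmj with hmj | hmj
        · exfalso; apply hjS; rw [← hmj, hmp]; exact mem_insert_self _ _
        · have := rho_ge_of_lt htr hc k0 j (by rw [← hp, ← hmp]; exact hmj)
          omega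
      · push Not at hsp
        right
        have hmM : m ∈ M := by rw [hM]; exact mem_filter.mpr ⟨hmW, hmmin, hsp⟩
        have hDm : D m ≤ d := by
          rcases hmj with rfl | hmj
          · exact hjd
          · exact le_trans (hD _ _ hmj).le hjd
        have hmS' := hstar m hmM hDm
        refine ⟨m, hmS', hDm, ?_⟩
        rcases hmj with rfl | hmj
        · exfalso; exact hjS (mem_insert_of_mem hmS')
        · exact hmj
    rcases ({a ∈ S' | D a ≤ d} : Finset V).eq_empty_or_nonempty with hemp | ⟨i, hi⟩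
    · have hsub2 : B ⊆ {j ∈ W | (t0 + 1 ≤ t0 ∨ t0 + 1 ≤ rho lt T c j) ∧ D j ≤ d} := by
        intro j hj
        rcases hclaim j hj with h1 | ⟨m, hm, hmd, _⟩
        · exact mem_filter.mpr ⟨(hBmem j hj).1, Or.inr h1, (hBmem j hj).2.2⟩
        · exfalso
          have : m ∈ ({a ∈ S' | D a ≤ d} : Finset V) := mem_filter.mpr ⟨hm, hmd⟩
          rw [hemp] at this
          exact absurd this (Finset.notMem_empty _)
      have := (Finset.card_le_card hsub2).trans (h.hH (t0 + 1) d (by omega))
      omega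
    · have hi' := mem_filter.mp hi
      have huniq : ∀ m ∈ S', D m ≤ d → m = i := by
        intro m hm hmd
        have hm' : m ∈ ({a ∈ S' | D a ≤ d} : Finset V) := mem_filter.mpr ⟨hm, hmd⟩
        have hc1 : #{a ∈ S' | D a ≤ d} ≤ 1 := by omega
        exact Finset.card_le_one.mp hc1 m hm' i hi
      have hiW : i ∈ W := hS'W hi'.1
      have hsub2 : B ⊆ {j ∈ W | j ≠ i ∧ D j ≤ d ∧
          (t0 + 1 ≤ t0 ∨ t0 + 1 ≤ rho lt T c j ∨ lt i j)} := by
        intro j hj
        obtain ⟨hjW, hjS, hjd⟩ := hBmem j hj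
        refine mem_filter.mpr ⟨hjW, ?_, hjd, ?_⟩
        · rintro rfl; exact hjS (mem_insert_of_mem hi'.1)
        · rcases hclaim j hj with h1 | ⟨m, hm, hmd, hmj⟩
          · exact Or.inr (Or.inl h1)
          · rw [huniq m hm hmd] at hmj; exact Or.inr (Or.inr hmj)
      have h1 := h.hA i hiW (t0 + 1) d (by omega)
        (lt_of_lt_of_le hcon (Finset.card_le_card hsub2))
      have h2 := h.lo i hiW
      omega
  refine ⟨insert p S', ?_, ?_, ?_, ?_⟩
  · intro x hx
    rw [mem_insert] at hx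
    rcases hx with rfl | hx
    · exact hpW
    · exact hS'W hx
  · calc #(insert p S') ≤ #S' + 1 := Finset.card_insert_le _ _
      _ ≤ 3 := by omega
  · intro a ha u hu hua
    rw [mem_insert] at ha
    rcases ha with rfl | ha
    · have h1 := hD _ _ hua
      have h2 := h.lo u hu
      omega
    · exact (hMmem a (hS'M ha)).2.1 u hu hua
  · have hlo' : ∀ j ∈ W \ insert p S', t0 + 1 < D j := by
      intro j hj
      by_contra hcon
      have hmem : j ∈ ({j ∈ W \ insert p S' | D j ≤ t0 + 1} : Finset V) :=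
        mem_filter.mpr ⟨hj, by omega⟩
      have h0 := hall' (t0 + 1)
      have h1 : 0 < #{j ∈ W \ insert p S' | D j ≤ t0 + 1} := Finset.card_pos.mpr ⟨j, hmem⟩
      omega
    refine ⟨hlo', ?_, ?_, ?_⟩
    · intro i hi s d hs hprem
      rcases Nat.eq_or_lt_of_le hs with hs' | hs'
      · exfalso
        subst hs'
        have h1 : #{j ∈ W \ insert p S' | j ≠ i ∧ D j ≤ d ∧
            (t0 + 1 ≤ t0 + 1 ∨ t0 + 1 ≤ rho lt T c j ∨ lt i j)} ≤
            #{j ∈ W \ insert p S' | D j ≤ d} := by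
          apply Finset.card_le_card
          intro j hj
          have hj' := mem_filter.mp hj
          exact mem_filter.mpr ⟨hj'.1, hj'.2.2.1⟩
        have h2 := hall' d
        omega
      · apply h.hA i (mem_sdiff.mp hi).1 s d (by omega)
        refine lt_of_lt_of_le hprem (Finset.card_le_card ?_)
        intro j hj
        have hj' := mem_filter.mp hj
        refine mem_filter.mpr ⟨(mem_sdiff.mp hj'.1).1, hj'.2.1, hj'.2.2.1, ?_⟩
        rcases hj'.2.2.2 with h1 | h1 | h1
        · omega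
        · exact Or.inr (Or.inl h1)
        · exact Or.inr (Or.inr h1)
    · intro s d hs
      rcases Nat.eq_or_lt_of_le hs with hs' | hs'
      · subst hs'
        refine le_trans (Finset.card_le_card ?_) (hall' d)
        intro j hj
        have hj' := mem_filter.mp hj
        exact mem_filter.mpr ⟨hj'.1, hj'.2.2⟩
      · refine le_trans (Finset.card_le_card ?_) (h.hH s d (by omega))
        intro j hj
        have hj' := mem_filter.mp hj
        refine mem_filter.mpr ⟨(mem_sdiff.mp hj'.1).1, ?_, hj'.2.2⟩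
        rcases hj'.2.1 with h1 | h1
        · omega
        · exact Or.inr h1
    · intro k
      rw [mem_sdiff, h.spine k, mem_insert]
      constructor
      · rintro ⟨h1, h2⟩
        by_contra hcon
        apply h2
        left
        have : k = k0 := Fin.ext (by omega)
        rw [this, hp]
      · intro h1
        refine ⟨by omega, ?_⟩
        rintro (h2 | h2)
        · have := hcinj k h2
          rw [this] at h1
          omega
        · exact (hMmem _ (hS'M h2)).2.2 k rfl

theorem Inv.exists_schedule (htr : ∀ a b e, lt a b → lt b e → lt a e)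
    (hc : ∀ a b : Fin T, a < b → lt (c a) (c b))
    (hD : ∀ a b, lt a b → D a < D b) (hDc : ∀ k : Fin T, D (c k) = k.val + 1)
    (hDT : ∀ v, D v ≤ T) :
    ∀ (m t0 : ℕ) (W : Finset V), T - t0 = m → Inv lt T c D t0 W →
    ∃ τ : V → ℕ, (∀ j ∈ W, t0 < τ j ∧ τ j ≤ T) ∧ (∀ u ∈ W, ∀ v ∈ W, lt u v → τ u < τ v) ∧
      ∀ t, #{j ∈ W | τ j = t} ≤ 3 := by
  classical
  intro m
  induction m with
  | zero =>
    intro t0 W hm h
    have hW : W = ∅ := by
      have h1 := h.hH t0 T le_rfl
      have h0 : 3 * (T - t0) = 0 := by omega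
      rw [h0, Nat.le_zero, Finset.card_eq_zero] at h1
      rw [Finset.eq_empty_iff_forall_notMem]
      intro j hj
      have h2 : j ∈ ({j ∈ W | (t0 ≤ t0 ∨ t0 ≤ rho lt T c j) ∧ D j ≤ T} : Finset V) :=
        mem_filter.mpr ⟨hj, Or.inl le_rfl, hDT j⟩
      rw [h1] at h2
      exact absurd h2 (Finset.notMem_empty _)
    subst hW
    exact ⟨fun _ => 0, by simp, by simp, by simp⟩
  | succ m ih =>
    intro t0 W hm h
    have ht : t0 < T := by omega
    obtain ⟨S, hSW, hS3, hSmin, hInv⟩ := h.step htr hc hD hDc ht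
    obtain ⟨τ', h1, h2, h3⟩ := ih (t0 + 1) (W \ S) (by omega) hInv
    refine ⟨fun j => if j ∈ S then t0 + 1 else τ' j, ?_, ?_, ?_⟩
    · intro j hj
      by_cases hjS : j ∈ S
      · simp only [hjS, if_true]; omega
      · have := h1 j (mem_sdiff.mpr ⟨hj, hjS⟩)
        simp only [hjS, if_false]; omega
    · intro u hu v hv huv
      by_cases hvS : v ∈ S
      · exact absurd huv (hSmin v hvS u hu)
      · have hv' := h1 v (mem_sdiff.mpr ⟨hv, hvS⟩)
        by_cases huS : u ∈ S
        · simp only [huS, hvS, if_true, if_false]; omega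
        · simp only [huS, hvS, if_false]
          exact h2 u (mem_sdiff.mpr ⟨hu, huS⟩) v (mem_sdiff.mpr ⟨hv, hvS⟩) huv
    · intro t
      by_cases htt : t = t0 + 1
      · refine le_trans (Finset.card_le_card ?_) hS3
        intro j hj
        have hj' := mem_filter.mp hj
        by_contra hjS
        have h4 := h1 j (mem_sdiff.mpr ⟨hj'.1, hjS⟩)
        have h5 := hj'.2
        simp only [hjS, if_false] at h5
        omega
      · refine le_trans (Finset.card_le_card ?_) (h3 t)
        intro j hj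
        have hj' := mem_filter.mp hj
        have h5 := hj'.2
        by_cases hjS : j ∈ S
        · simp only [hjS, if_true] at h5; omega
        · simp only [hjS, if_false] at h5
          exact mem_filter.mpr ⟨mem_sdiff.mpr ⟨hj'.1, hjS⟩, h5⟩

theorem strictMono_gap (g : Fin T → ℕ) (hg : ∀ a b : Fin T, a < b → g a < g b) :
    ∀ (n : ℕ) (a b : Fin T), b.val = a.val + n → g a + n ≤ g b := by
  intro n
  induction n with
  | zero =>
    intro a b hab
    have : a = b := Fin.ext (by omega)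
    rw [this]; omega
  | succ n ih =>
    intro a b hab
    have hlt : a.val + n < T := by have := b.isLt; omega
    have h1 := ih a ⟨a.val + n, hlt⟩ rfl
    have h2 := hg ⟨a.val + n, hlt⟩ b (by rw [Fin.lt_def]; simp; omega)
    omega

/-- Sufficiency: consistent deadlines yield a three-machine schedule of length `T`. -/
theorem exists_schedule_of_consistent (htr : ∀ a b e, lt a b → lt b e → lt a e)
    (hc : ∀ a b : Fin T, a < b → lt (c a) (c b))
    (hD : ∀ a b, lt a b → D a < D b) (hDT : ∀ v, D v ≤ T)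
    (hA : ∀ i s d, 3 * (d - s) < #{j | j ≠ i ∧ D j ≤ d ∧ (s ≤ rho lt T c j ∨ lt i j)} → D i < s)
    (hH : ∀ s d, #{j | s ≤ rho lt T c j ∧ D j ≤ d} ≤ 3 * (d - s)) :
    ∃ τ : V → ℕ, (∀ u v, lt u v → τ u < τ v) ∧ (∀ v, 1 ≤ τ v ∧ τ v ≤ T) ∧
      ∀ t, #{v | τ v = t} ≤ 3 := by
  classical
  have hpos : ∀ j, 0 < D j := by
    intro j
    by_contra hcon
    have h0 := hH 0 0
    have h1 : j ∈ ({j | 0 ≤ rho lt T c j ∧ D j ≤ 0} : Finset V) :=
      mem_filter.mpr ⟨mem_univ _, Nat.zero_le _, by omega⟩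
    have h2 : 0 < #{j | 0 ≤ rho lt T c j ∧ D j ≤ 0} := Finset.card_pos.mpr ⟨j, h1⟩
    omega
  have hDc : ∀ k : Fin T, D (c k) = k.val + 1 := by
    intro k
    have hg : ∀ a b : Fin T, a < b → D (c a) < D (c b) := fun a b hab => hD _ _ (hc a b hab)
    have hT : 0 < T := by have := k.isLt; omega
    have h1 := strictMono_gap (fun k => D (c k)) hg k.val ⟨0, hT⟩ k (by simp)
    have h2 := strictMono_gap (fun k => D (c k)) hg (T - 1 - k.val) k ⟨T - 1, by omega⟩
      (by have := k.isLt; simp; omega)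
    have h3 := hpos (c ⟨0, hT⟩)
    have h4 := hDT (c ⟨T - 1, by omega⟩)
    have := k.isLt
    omega
  have hInv : Inv lt T c D 0 (Finset.univ : Finset V) := by
    refine ⟨fun j _ => hpos j, ?_, ?_, fun k => by simp⟩
    · intro i _ s d _ hprem
      apply hA i s d
      refine lt_of_lt_of_le hprem (Finset.card_le_card ?_)
      intro j hj
      have hj' := mem_filter.mp hj
      refine mem_filter.mpr ⟨mem_univ _, hj'.2.1, hj'.2.2.1, ?_⟩
      rcases hj'.2.2.2 with h1 | h1 | h1
      · left; omega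
      · exact Or.inl h1
      · exact Or.inr h1
    · intro s d _
      refine le_trans (Finset.card_le_card ?_) (hH s d)
      intro j hj
      have hj' := mem_filter.mp hj
      refine mem_filter.mpr ⟨mem_univ _, ?_, hj'.2.2⟩
      rcases hj'.2.1 with h1 | h1
      · omega
      · exact h1
  obtain ⟨τ, h1, h2, h3⟩ := Inv.exists_schedule htr hc hD hDc hDT (T - 0) 0 Finset.univ rfl hInv
  refine ⟨τ, fun u v huv => h2 u (mem_univ _) v (mem_univ _) huv,
    fun v => ⟨(h1 v (mem_univ _)).1, (h1 v (mem_univ _)).2⟩, fun t => ?_⟩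
  simpa using h3 t

/-- In a schedule, a job above `rho` spine jobs runs after slot `rho`. -/
theorem rho_lt_of_schedule (hc : ∀ a b : Fin T, a < b → lt (c a) (c b))
    (τ : V → ℕ) (hτ : ∀ u v, lt u v → τ u < τ v) (h1 : ∀ v, 1 ≤ τ v) (j : V) :
    rho lt T c j < τ j := by
  classical
  have hle : rho lt T c j ≤ #(Finset.Ico 1 (τ j)) := by
    apply Finset.card_le_card_of_injOn (fun k => τ (c k))
    · intro k hk
      have hk' : lt (c k) j := by simpa using hk
      simp only [coe_Ico, Set.mem_Ico]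
      exact ⟨h1 _, hτ _ _ hk'⟩
    · intro a _ b _ hab
      simp only at hab
      by_contra hne
      rcases lt_or_gt_of_ne hne with h | h
      · have := hτ _ _ (hc a b h); omega
      · have := hτ _ _ (hc b a h); omega
  rw [Nat.card_Ico] at hle
  have := h1 j
  omega

/-- At most `3 * (d - s)` jobs run in the slots `s+1, ..., d`. -/
theorem card_slots_le (τ : V → ℕ) (h3 : ∀ t, #{v | τ v = t} ≤ 3) (s d : ℕ) :
    #{j | s < τ j ∧ τ j ≤ d} ≤ 3 * (d - s) := by
  classical
  have hsub : ({j | s < τ j ∧ τ j ≤ d} : Finset V) ⊆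
      (Finset.Ioc s d).biUnion (fun t => ({v | τ v = t} : Finset V)) := by
    intro j hj
    have hj' := mem_filter.mp hj
    rw [Finset.mem_biUnion]
    exact ⟨τ j, Finset.mem_Ioc.mpr hj'.2, mem_filter.mpr ⟨mem_univ _, rfl⟩⟩
  calc #{j | s < τ j ∧ τ j ≤ d} ≤ #((Finset.Ioc s d).biUnion (fun t => ({v | τ v = t} : Finset V))) :=
        Finset.card_le_card hsub
    _ ≤ ∑ t ∈ Finset.Ioc s d, #{v | τ v = t} := Finset.card_biUnion_le
    _ ≤ ∑ _t ∈ Finset.Ioc s d, 3 := Finset.sum_le_sum (fun t _ => h3 t)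
    _ = 3 * (d - s) := by simp [Nat.card_Ioc, mul_comm]

/-- Necessity: a schedule is itself a consistent deadline assignment. -/
theorem consistent_of_schedule (hc : ∀ a b : Fin T, a < b → lt (c a) (c b))
    (τ : V → ℕ) (hτ : ∀ u v, lt u v → τ u < τ v) (h1 : ∀ v, 1 ≤ τ v)
    (h3 : ∀ t, #{v | τ v = t} ≤ 3) :
    (∀ i s d, 3 * (d - s) < #{j | j ≠ i ∧ τ j ≤ d ∧ (s ≤ rho lt T c j ∨ lt i j)} → τ i < s) ∧
    (∀ s d, #{j | s ≤ rho lt T c j ∧ τ j ≤ d} ≤ 3 * (d - s)) := by
  classical
  constructor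
  · intro i s d hprem
    by_contra hcon
    have hsub : ({j | j ≠ i ∧ τ j ≤ d ∧ (s ≤ rho lt T c j ∨ lt i j)} : Finset V) ⊆
        ({j | s < τ j ∧ τ j ≤ d} : Finset V) := by
      intro j hj
      have hj' := mem_filter.mp hj
      refine mem_filter.mpr ⟨mem_univ _, ?_, hj'.2.2.1⟩
      rcases hj'.2.2.2 with h | h
      · exact lt_of_le_of_lt h (rho_lt_of_schedule hc τ hτ h1 j)
      · have := hτ _ _ h; omega
    have := (Finset.card_le_card hsub).trans (card_slots_le τ h3 s d)
    omega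
  · intro s d
    refine le_trans (Finset.card_le_card ?_) (card_slots_le τ h3 s d)
    intro j hj
    have hj' := mem_filter.mp hj
    exact mem_filter.mpr ⟨mem_univ _, lt_of_le_of_lt hj'.2.1 (rho_lt_of_schedule hc τ hτ h1 j),
      hj'.2.2⟩

end Core

end Vale.Agent.Lib.P324
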