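import Mathlib

namespace Vale.Agent.Lib.P324

open Finset

/-- One round of deadline tightening. The deadline `D i` is lowered by one if some successor
`j` of `i` has `D j ≤ D i`, or if for some `s ≤ D i` and `d ≤ T` more than `3 * (d - s)` jobs
`j ≠ i` have `D j ≤ d` and lie above at least `s` jobs of the chain `c` or are successors
of `i`; otherwise `D i` is kept. -/
def tighten {V : Type*} [Fintype V] [DecidableEq V] (lt : V → V → Prop) [DecidableRel lt]
    (T : ℕ) (c : Fin T → V) (D : V → ℕ) (i : V) : ℕ :=
  if (∃ j, lt i j ∧ D j ≤ D i) ∨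
      (∃ s ∈ range (D i + 1), ∃ d ∈ range (T + 1),
        3 * (d - s) < #{j | j ≠ i ∧ D j ≤ d ∧ (s ≤ #{k | lt (c k) j} ∨ lt i j)})
  then D i - 1 else D i

/-- The deadlines obtained from the constant deadline `T` by `|V| * T` rounds of tightening. -/
def deadlines {V : Type*} [Fintype V] [DecidableEq V] (lt : V → V → Prop) [DecidableRel lt]
    (T : ℕ) (c : Fin T → V) : V → ℕ :=
  (tighten lt T c)^[Fintype.card V * T] (fun _ => T)

end Vale.Agent.Lib.P324
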