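import Vale.Agent.Lib.P324.Defs

namespace Vale.Agent.Lib.P324

open Finset

/-- The critical-path test for a relation `lt`, a length `T` and a chain `c` of `T` jobs:
the iterated deadlines are a fixed point of the tightening round and satisfy the counting
condition. -/
def critTest {V : Type*} [Fintype V] [DecidableEq V] (lt : V → V → Prop) [DecidableRel lt]
    (T : ℕ) (c : Fin T → V) : Prop :=
  tighten lt T c (deadlines lt T c) = deadlines lt T c ∧
    ∀ s ≤ T, ∀ d ≤ T, #{j | s ≤ #{k | lt (c k) j} ∧ deadlines lt T c j ≤ d} ≤ 3 * (d - s)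

end Vale.Agent.Lib.P324
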