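import Vale.Agent.Lib.P324.Test
import Vale.Agent.Lib.P324.SlackDefs

namespace Vale.Agent.Lib.P324

open Finset

open Classical in
/-- Bounded slack: a schedule of length `T` exists iff some completion of the given chain
to a full chain passes the critical-path test. -/
theorem slack_iff {V : Type*} [Fintype V] [DecidableEq V] (E : V → V → Prop) (T m : ℕ)
    (c : Fin m → V) (hc : ∀ a b : Fin m, a < b → Relation.TransGen E (c a) (c b)) :
    (∃ τ : V → ℕ, (∀ u v, E u v → τ u < τ v) ∧ (∀ v, 1 ≤ τ v ∧ τ v ≤ T) ∧
        ∀ t, #{v | τ v = t} ≤ 3) ↔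
      ∃ T' ≤ T, ∃ c' : Fin T' → V, (∀ a, ∃ b, c' b = c a) ∧
        critTest (Relation.TransGen fun u v => E u v ∨ ∃ a b, a < b ∧ c' a = u ∧ c' b = v)
          T' c' := by
  constructor
  · rintro ⟨τ, hτ, h1T, h3⟩
    obtain ⟨U, hU⟩ : ∃ U : Finset ℕ, U = Finset.univ.image τ := ⟨_, rfl⟩
    have hmem : ∀ v, τ v ∈ U := fun v => by rw [hU]; exact Finset.mem_image.mpr ⟨v, mem_univ _, rfl⟩
    have hUsub : U ⊆ Finset.Icc 1 T := by
      intro t ht
      rw [hU] at ht
      obtain ⟨v, _, rfl⟩ := Finset.mem_image.mp ht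
      exact Finset.mem_Icc.mpr (h1T v)
    have hT' : #U ≤ T := by simpa using Finset.card_le_card hUsub
    have hUmem : ∀ t ∈ U, ∃ v, τ v = t := by
      intro t ht
      rw [hU] at ht
      obtain ⟨v, _, hv⟩ := Finset.mem_image.mp ht
      exact ⟨v, hv⟩
    obtain ⟨iso, -⟩ : ∃ iso : Fin #U ≃o U, True := ⟨U.orderIsoOfFin rfl, trivial⟩
    obtain ⟨rk, hrkdef⟩ : ∃ rk : V → Fin #U, rk = fun v => iso.symm ⟨τ v, hmem v⟩ := ⟨_, rfl⟩
    have hrk : ∀ v, ((iso (rk v) : U) : ℕ) = τ v := by
      intro v; rw [hrkdef]; simp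
    have hex : ∀ r : Fin #U, ∃ v, τ v = ((iso r : U) : ℕ) := fun r => hUmem _ (iso r).2
    obtain ⟨c', hc'def⟩ : ∃ c' : Fin #U → V, c' = fun r =>
        if h : ∃ a, τ (c a) = ((iso r : U) : ℕ) then c h.choose else (hex r).choose := ⟨_, rfl⟩
    have hc' : ∀ r, τ (c' r) = ((iso r : U) : ℕ) := by
      intro r
      rw [hc'def]
      simp only
      split_ifs with h
      · exact h.choose_spec
      · exact (hex r).choose_spec
    have hrkc' : ∀ r, rk (c' r) = r := by
      intro r
      apply iso.injective
      apply Subtype.ext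
      rw [hrk, hc']
    have hτt : ∀ u v, Relation.TransGen E u v → τ u < τ v := by
      intro u v huv
      induction huv with
      | single h => exact hτ _ _ h
      | tail _ h ih => exact lt_trans ih (hτ _ _ h)
    have hτc : ∀ a b : Fin m, a < b → τ (c a) < τ (c b) := fun a b hab => hτt _ _ (hc a b hab)
    have hrklt : ∀ u v, τ u < τ v → rk u < rk v := by
      intro u v huv
      rw [hrkdef]
      simp only [OrderIso.lt_iff_lt]
      exact huv
    refine ⟨#U, hT', c', ?_, ?_⟩
    · intro a
      refine ⟨rk (c a), ?_⟩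
      have h : ∃ a', τ (c a') = ((iso (rk (c a)) : U) : ℕ) := ⟨a, (hrk (c a)).symm⟩
      rw [hc'def]
      simp only [dif_pos h]
      have h2 : τ (c h.choose) = τ (c a) := h.choose_spec.trans (hrk (c a))
      congr 1
      by_contra hne
      rcases lt_or_gt_of_ne hne with h3 | h3
      · have := hτc _ _ h3; omega
      · have := hτc _ _ h3; omega
    · unfold critTest
      refine (test_iff
        (lt := Relation.TransGen fun u v => E u v ∨ ∃ a b, a < b ∧ c' a = u ∧ c' b = v)
        (T := #U) (c := c') (fun a b e h1 h2 => h1.trans h2)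
        (fun a b hab => Relation.TransGen.single (Or.inr ⟨a, b, hab, rfl, rfl⟩))).mp ?_
      refine ⟨fun v => (rk v).val + 1, ?_, ?_, ?_⟩
      · intro u v huv
        have hlt : rk u < rk v := by
          induction huv with
          | single h =>
            rcases h with h | ⟨a, b, hab, rfl, rfl⟩
            · exact hrklt _ _ (hτ _ _ h)
            · rw [hrkc', hrkc']; exact hab
          | tail _ h ih =>
            refine lt_trans ih ?_
            rcases h with h | ⟨a, b, hab, rfl, rfl⟩
            · exact hrklt _ _ (hτ _ _ h)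
            · rw [hrkc', hrkc']; exact hab
        have := Fin.lt_def.mp hlt
        show (rk u).val + 1 < (rk v).val + 1
        omega
      · intro v
        have := (rk v).isLt
        show 1 ≤ (rk v).val + 1 ∧ (rk v).val + 1 ≤ #U
        constructor <;> omega
      · intro t
        by_cases hne : ∃ v0, (rk v0).val + 1 = t
        · obtain ⟨v0, hv0⟩ := hne
          refine le_trans (Finset.card_le_card ?_) (h3 (τ v0))
          intro v hv
          have hv' : (rk v).val + 1 = t := (mem_filter.mp hv).2
          refine mem_filter.mpr ⟨mem_univ _, ?_⟩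
          have heq : rk v = rk v0 := Fin.ext (by omega)
          rw [← hrk v, ← hrk v0, heq]
        · have hempty : ({v | (rk v).val + 1 = t} : Finset V) = ∅ := by
            rw [Finset.eq_empty_iff_forall_notMem]
            intro v hv
            exact hne ⟨v, (mem_filter.mp hv).2⟩
          rw [hempty]
          simp
  · rintro ⟨T', hT', c', _, htest⟩
    unfold critTest at htest
    obtain ⟨τ, hτ, h1T, h3⟩ := (test_iff
      (lt := Relation.TransGen fun u v => E u v ∨ ∃ a b, a < b ∧ c' a = u ∧ c' b = v)
      (T := T') (c := c') (fun a b e h1 h2 => h1.trans h2)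
      (fun a b hab => Relation.TransGen.single (Or.inr ⟨a, b, hab, rfl, rfl⟩))).mpr htest
    exact ⟨τ, fun u v h => hτ u v (Relation.TransGen.single (Or.inl h)),
      fun v => ⟨(h1T v).1, le_trans (h1T v).2 hT'⟩, h3⟩

end Vale.Agent.Lib.P324
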