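import Vale.Agent.Lib.P324.Core
import Vale.Agent.Lib.P324.Defs

namespace Vale.Agent.Lib.P324

open Finset

variable {V : Type*} [Fintype V] [DecidableEq V]

/-- Iterating a pointwise decreasing operator on `V → ℕ` reaches a fixed point. -/
theorem iterate_fixed (f : (V → ℕ) → V → ℕ) (hf : ∀ D i, f D i ≤ D i) :
    ∀ (m : ℕ) (D : V → ℕ), ∑ i, D i ≤ m → f (f^[m] D) = f^[m] D := by
  intro m
  induction m with
  | zero =>
    intro D hD
    have h0 : ∀ i, D i = 0 := by
      intro i
      have : D i ≤ ∑ i, D i := Finset.single_le_sum (fun _ _ => Nat.zero_le _) (mem_univ i)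
      omega
    funext i
    have := hf D i
    simp only [Function.iterate_zero, id_eq]
    rw [h0 i] at this ⊢
    omega
  | succ m ih =>
    intro D hD
    by_cases hfix : f D = D
    · rw [Function.iterate_fixed hfix]; exact hfix
    · rw [Function.iterate_succ_apply]
      apply ih
      have hne : ∃ i, f D i ≠ D i := by
        by_contra hcon
        push Not at hcon
        exact hfix (funext hcon)
      obtain ⟨i, hi⟩ := hne
      have hlt : ∑ i, f D i < ∑ i, D i := by
        apply Finset.sum_lt_sum (fun j _ => hf D j)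
        exact ⟨i, mem_univ i, lt_of_le_of_ne (hf D i) hi⟩
      omega

section

variable (lt : V → V → Prop) [DecidableRel lt] (T : ℕ) (c : Fin T → V)

theorem tighten_le (D : V → ℕ) (i : V) : tighten lt T c D i ≤ D i := by
  unfold tighten
  split_ifs <;> omega

theorem deadlines_le (i : V) : deadlines lt T c i ≤ T := by
  unfold deadlines
  generalize Fintype.card V * T = m
  induction m with
  | zero => simp
  | succ m ih =>
    rw [Function.iterate_succ_apply']
    exact le_trans (tighten_le lt T c _ i) ih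

theorem tighten_deadlines : tighten lt T c (deadlines lt T c) = deadlines lt T c := by
  unfold deadlines
  apply iterate_fixed (tighten lt T c) (tighten_le lt T c)
  simp

variable {lt T c}

theorem tighten_sound (hc : ∀ a b : Fin T, a < b → lt (c a) (c b))
    (τ : V → ℕ) (hτ : ∀ u v, lt u v → τ u < τ v) (h1 : ∀ v, 1 ≤ τ v)
    (h3 : ∀ t, #{v | τ v = t} ≤ 3) (D : V → ℕ) (hD : ∀ i, τ i ≤ D i) (i : V) :
    τ i ≤ tighten lt T c D i := by
  unfold tighten
  split_ifs with hcond
  · rcases hcond with ⟨j, hij, hDj⟩ | ⟨s, hs, d, _, hcnt⟩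
    · have := hτ _ _ hij
      have := hD j
      omega
    · have hsi : τ i < s := by
        by_contra hcon
        have hsub : ({j | j ≠ i ∧ D j ≤ d ∧ (s ≤ #{k | lt (c k) j} ∨ lt i j)} : Finset V) ⊆
            ({j | s < τ j ∧ τ j ≤ d} : Finset V) := by
          intro j hj
          have hj' := mem_filter.mp hj
          refine mem_filter.mpr ⟨mem_univ _, ?_, le_trans (hD j) hj'.2.2.1⟩
          rcases hj'.2.2.2 with h | h
          · exact lt_of_le_of_lt h (rho_lt_of_schedule hc τ hτ h1 j)
          · have := hτ _ _ h; omega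
        have := (Finset.card_le_card hsub).trans (card_slots_le τ h3 s d)
        omega
      have := Finset.mem_range.mp hs
      omega
  · exact hD i

theorem deadlines_sound (hc : ∀ a b : Fin T, a < b → lt (c a) (c b))
    (τ : V → ℕ) (hτ : ∀ u v, lt u v → τ u < τ v) (h1 : ∀ v, 1 ≤ τ v) (hT : ∀ v, τ v ≤ T)
    (h3 : ∀ t, #{v | τ v = t} ≤ 3) (i : V) : τ i ≤ deadlines lt T c i := by
  unfold deadlines
  generalize Fintype.card V * T = m
  induction m generalizing i with
  | zero => simpa using hT i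
  | succ m ih =>
    rw [Function.iterate_succ_apply']
    exact tighten_sound hc τ hτ h1 h3 _ ih i

/-- The explicit test: a schedule of length `T` exists iff the tightened deadlines pass the
counting condition. -/
theorem test_iff (htr : ∀ a b e, lt a b → lt b e → lt a e)
    (hc : ∀ a b : Fin T, a < b → lt (c a) (c b)) :
    (∃ τ : V → ℕ, (∀ u v, lt u v → τ u < τ v) ∧ (∀ v, 1 ≤ τ v ∧ τ v ≤ T) ∧
        ∀ t, #{v | τ v = t} ≤ 3) ↔
      tighten lt T c (deadlines lt T c) = deadlines lt T c ∧
        ∀ s ≤ T, ∀ d ≤ T,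
          #{j | s ≤ #{k | lt (c k) j} ∧ deadlines lt T c j ≤ d} ≤ 3 * (d - s) := by
  constructor
  · rintro ⟨τ, hτ, h1T, h3⟩
    refine ⟨tighten_deadlines lt T c, ?_⟩
    intro s _ d _
    refine le_trans (Finset.card_le_card ?_) (card_slots_le τ h3 s d)
    intro j hj
    have hj' := mem_filter.mp hj
    have hle := deadlines_sound hc τ hτ (fun v => (h1T v).1) (fun v => (h1T v).2) h3 j
    exact mem_filter.mpr ⟨mem_univ _,
      lt_of_le_of_lt hj'.2.1 (rho_lt_of_schedule hc τ hτ (fun v => (h1T v).1) j),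
      le_trans hle hj'.2.2⟩
  · rintro ⟨hfix, hall⟩
    obtain ⟨D, hDdef⟩ : ∃ D : V → ℕ, D = deadlines lt T c := ⟨_, rfl⟩
    rw [← hDdef] at hfix hall
    have hDT : ∀ v, D v ≤ T := by
      intro v; rw [hDdef]; exact deadlines_le lt T c v
    have hpos : ∀ j, 0 < D j := by
      intro j
      by_contra hcon
      have h0 := hall 0 (Nat.zero_le _) 0 (Nat.zero_le _)
      have h1 : j ∈ ({j | 0 ≤ #{k | lt (c k) j} ∧ D j ≤ 0} : Finset V) :=
        mem_filter.mpr ⟨mem_univ _, Nat.zero_le _, by omega⟩
      have h2 : 0 < #{j | 0 ≤ #{k | lt (c k) j} ∧ D j ≤ 0} := Finset.card_pos.mpr ⟨j, h1⟩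
      omega
    have hnot : ∀ i, ¬ ((∃ j, lt i j ∧ D j ≤ D i) ∨
        (∃ s ∈ range (D i + 1), ∃ d ∈ range (T + 1),
          3 * (d - s) < #{j | j ≠ i ∧ D j ≤ d ∧ (s ≤ #{k | lt (c k) j} ∨ lt i j)})) := by
      intro i hcond
      have h1 := congrFun hfix i
      unfold tighten at h1
      rw [if_pos hcond] at h1
      have := hpos i
      omega
    have hrhoT : ∀ j, #{k | lt (c k) j} ≤ T := by
      intro j
      calc #{k | lt (c k) j} ≤ #(Finset.univ : Finset (Fin T)) := Finset.card_le_card (by simp)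
        _ = T := by simp
    apply exists_schedule_of_consistent htr hc (D := D)
    · intro a b hab
      by_contra hcon
      exact hnot a (Or.inl ⟨b, hab, by omega⟩)
    · exact hDT
    · intro i s d hprem
      by_contra hcon
      apply hnot i
      right
      refine ⟨s, Finset.mem_range.mpr (by omega), min d T, Finset.mem_range.mpr (by omega), ?_⟩
      have hsub : ({j | j ≠ i ∧ D j ≤ d ∧ (s ≤ #{k | lt (c k) j} ∨ lt i j)} : Finset V) ⊆
          ({j | j ≠ i ∧ D j ≤ min d T ∧ (s ≤ #{k | lt (c k) j} ∨ lt i j)} : Finset V) := by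
        intro j hj
        have hj' := mem_filter.mp hj
        exact mem_filter.mpr ⟨mem_univ _, hj'.2.1, le_min hj'.2.2.1 (hDT j), hj'.2.2.2⟩
      have h1 := Finset.card_le_card hsub
      have h2 : 3 * (min d T - s) ≤ 3 * (d - s) :=
        Nat.mul_le_mul_left 3 (Nat.sub_le_sub_right (min_le_left d T) s)
      exact lt_of_le_of_lt h2 (lt_of_lt_of_le hprem h1)
    · intro s d
      by_cases hs : s ≤ T
      · have h1 := hall s hs (min d T) (min_le_right _ _)
        have hsub : ({j | s ≤ #{k | lt (c k) j} ∧ D j ≤ d} : Finset V) ⊆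
            ({j | s ≤ #{k | lt (c k) j} ∧ D j ≤ min d T} : Finset V) := by
          intro j hj
          have hj' := mem_filter.mp hj
          exact mem_filter.mpr ⟨mem_univ _, hj'.2.1, le_min hj'.2.2 (hDT j)⟩
        have h2 := Finset.card_le_card hsub
        have h3 : 3 * (min d T - s) ≤ 3 * (d - s) :=
          Nat.mul_le_mul_left 3 (Nat.sub_le_sub_right (min_le_left d T) s)
        exact le_trans h2 (le_trans h1 h3)
      · have hempty : ({j | s ≤ #{k | lt (c k) j} ∧ D j ≤ d} : Finset V) = ∅ := by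
          rw [Finset.eq_empty_iff_forall_notMem]
          intro j hj
          have hj' := mem_filter.mp hj
          have := hrhoT j
          omega
        rw [hempty]
        simp

/-- The certificate form: a schedule of length `T` exists iff a consistent deadline
assignment exists. -/
theorem cert_iff (htr : ∀ a b e, lt a b → lt b e → lt a e)
    (hc : ∀ a b : Fin T, a < b → lt (c a) (c b)) :
    (∃ τ : V → ℕ, (∀ u v, lt u v → τ u < τ v) ∧ (∀ v, 1 ≤ τ v ∧ τ v ≤ T) ∧
        ∀ t, #{v | τ v = t} ≤ 3) ↔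
      ∃ D : V → ℕ, (∀ u v, lt u v → D u < D v) ∧ (∀ v, D v ≤ T) ∧
        (∀ i s d, 3 * (d - s) < #{j | j ≠ i ∧ D j ≤ d ∧ (s ≤ #{k | lt (c k) j} ∨ lt i j)} →
          D i < s) ∧
        ∀ s d, #{j | s ≤ #{k | lt (c k) j} ∧ D j ≤ d} ≤ 3 * (d - s) := by
  constructor
  · rintro ⟨τ, hτ, h1T, h3⟩
    obtain ⟨hA, hH⟩ := consistent_of_schedule hc τ hτ (fun v => (h1T v).1) h3
    exact ⟨τ, hτ, fun v => (h1T v).2, hA, hH⟩
  · rintro ⟨D, hD, hDT, hA, hH⟩
    exact exists_schedule_of_consistent htr hc hD hDT hA hH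

end

end Vale.Agent.Lib.P324
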